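import Vale.Agent.P286EXK.Mk

/-!
# The two comparison theorems
-/

set_option linter.all false

namespace Vale.Agent.P286EX

open CategoryTheory TensorProduct Vale.Agent.P286 Vale.Agent.P286.St Vale.Agent.P286.H847
  Vale.Agent.P286.H710 Vale.Agent.P286.H697 Vale.Agent.P286E Vale.Agent.P286EG
open Vale.Agent.P286.H761 (CO CS)

noncomputable section

section Pull

variable {A T : Type} [CommRing A] [Algebra ℂ A] [CommRing T] [Algebra ℂ T] [Algebra A T]
  [IsScalarTower ℂ A T] [Module.Flat A T] (b : H710.DB ℂ A) {M : H697.DGM A} {L : H697.DGM T}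

theorem db_pullI (M : H697.DGM A) :
    P286EG.DB (algebraMap A T) (dag M) (dag (pullD T b M)) (pullI b M).u := by
  have hf : (algebraMap A T).Flat := RingHom.flat_algebraMap_iff.2 inferInstance
  have ht : Sl (algebraMap A T) (dag M) (dag (pullD T b M)) (pullI b M).u :=
    fun a x => (pullI b M).smul a x
  have hv : ∀ m c ξ, (dag (pullD T b M)).val m ((bm _ ht.sl).f m (ExtS.el (algebraMap A T) c ξ)) =
      c ⊗ₜ[A] (dag M).val m ξ := fun m c ξ => by
    change c • ((1 : T) ⊗ₜ[A] (dag M).val m ξ) = _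
    rw [smul_tmul', smul_eq_mul, mul_one]
  refine (db_flat hf ht).2 (AH.Qis.of_bij _ fun m => ⟨?_, fun y => ?_⟩)
  · let ι : (dag M).T m →ₗ[A] M.M.V := ⟨⟨(dag M).val m, map_add _⟩, fun a x => rfl⟩
    have hι : Function.Injective (ExtS.map (algebraMap A T) ι) :=
      letI := (algebraMap A T).toAlgebra
      haveI : Module.Flat A T := hf
      Module.Flat.lTensor_preserves_injective_linearMap ι fun x y h => (dag M).val_inj h
    let el : T →+ M.M.V →+ ExtS (algebraMap A T) M.M.V :=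
      letI : Module A T := Module.compHom T (algebraMap A T)
      LinearMap.toAddMonoidHom'.comp (TensorProduct.mk A T M.M.V).toAddMonoidHom
    let g : T ⊗[A] M.M.V →+ ExtS (algebraMap A T) M.M.V := TensorProduct.liftAddHom el
      fun a c x => by
        rw [Algebra.smul_def]
        exact
          letI : Module A T := Module.compHom T (algebraMap A T)
          smul_tmul a c x
    have hg : ∀ z, g ((dag (pullD T b M)).val m ((bm _ ht.sl).f m z)) =
        ExtS.map (algebraMap A T) ι z := fun z =>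
      bc_ext (P := (dag M).mc) (u := (g.comp ((dag (pullD T b M)).val m)).comp ((bm _ ht.sl).f m))
        (v := ExtS.map (algebraMap A T) ι) (fun c ξ => congrArg g (hv m c ξ)) z
    intro z z' h
    exact hι ((hg z).symm.trans ((congrArg (fun y => g ((dag (pullD T b M)).val m y)) h).trans
      (hg z')))
  · obtain ⟨z, hz⟩ : ∃ z, (dag (pullD T b M)).val m ((bm _ ht.sl).f m z) =
        (dag (pullD T b M)).val m y :=
      pgr_ind M (Q := fun y => ∃ z, (dag (pullD T b M)).val m ((bm _ ht.sl).f m z) = y)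
        ⟨0, by rw [map_zero, map_zero]; rfl⟩
        (fun c x hx => ⟨_, hv m c ((dag M).el x hx)⟩)
        (fun x y ⟨z, hz⟩ ⟨z', hz'⟩ => ⟨z + z', by rw [map_add, map_add, hz, hz']; rfl⟩)
        ((dag (pullD T b M)).val_mem y)
    exact ⟨z, (dag (pullD T b M)).val_inj hz⟩

theorem qis_pullM (t : TrM (sA ℂ A T) M L)
    (h : P286EG.DB (algebraMap A T) (dag M) (dag L) t.u) : GD.Qis (pullM b t).u :=
  (db_pullI b M).qis h (u := GD.Hom.id _) (fun _ _ => rfl) (fun a x => (pullM b t).smul a x)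
    (GD.Qis.id _) fun x => one_smul T (t.u.f x)

end Pull

variable {I : Type} [SmallCategory I] {D : CD I} {G : Grp} {s : ℂ} {K : GK G}

namespace HG

variable (H : HG (K.gs D s))

theorem th_inl (X : QO D) (a : Fin 3) : (K.gs D s).th (inl K s X) a = 0 := thm_one a

/-- The complex over the coproduct. -/
def KC (X : QO D) : H697.DGM (RQ G s X ⊗[ℂ] K.O.R) := H.K (cop K X)

theorem hor_of {T : TSite} {S : GS T} (H : HG S) {X Y : T.C} (u : X ⟶ Y) (h1 : T.dl u = 1)
    (h2 : ∀ a, S.th u a = 0) : Hor (T.f u) (H.K X).C (H.K Y).C (H.t u).f := fun w n c v h x => by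
  have e := H.t_act u w n c v h x
  rw [h1, Derivation.map_one_eq_zero, mul_zero, zero_smul, sub_zero] at e
  simpa only [h2, map_zero, zero_smul, Finset.sum_const_zero, add_zero] using e

/-- The transition map of the first inclusion. -/
def trL (X : QO D) : TrM (sA ℂ (RQ G s X) (RQ G s X ⊗[ℂ] K.O.R)) (H.K X) (H.KC X) where
  u := H.t (inl K s X)
  smul a m := H.t_smul (inl K s X) a m
  hor := H.hor_of (inl K s X) (dl_inL X) (th_inl X)

variable (K) in
/-- The coordinates on the coproduct. -/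
def bC (s : ℂ) (X : QO D) : H710.DB ℂ (RQ G s X ⊗[ℂ] K.O.R) := bT (QS D G s) (cop K X)

/-- The map from the pull-back. -/
def pl (X : QO D) :
    DGM.Mor (pullD (RQ G s X ⊗[ℂ] K.O.R) (bT (QS D G s) X) (H.K X)) (H.KC X) :=
  pullM (A := RQ G s X) (bT (QS D G s) X) (H.trL X)

theorem ft_inl (X : QO D) (y : (H.F X).M.V) : H.ft (inl K s X) y =
    ((H.trL X).dr (bT (QS D G s) X) (bC K s X)).f y :=
  (H.E_of_th _ (th_inl X) _).trans (by
    induction y using DR.induction with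
    | zero => exact (map_zero _).trans (map_zero _).symm
    | tmul w x => rfl
    | add x y hx hy =>
      exact (map_add _ x y).trans ((congrArg₂ (· + ·) hx hy).trans (map_add _ x y).symm))

theorem qis_pull (h : FC H.fa) (X : QO D) : GD.Qis (H.pl X).u :=
  qis_pullM _ (H.trL X) ((h X (cop K X) (inl K s X) ⟨rfl, rfl⟩).congr (fun _ => rfl) fun _ => rfl)

theorem kp0_eq (X : QO D) (z : (H.KV X).M.V) : (H.kp0 X).f z =
    (DGM.DRg.map (bC K s X) (H.pl X)).f
      ((kv0 (A := RQ G s X) K.O.R (bT (QS D G s) X) (H.K X) (bC K s X)).f z) := by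
  induction z using H.KV_ind with
  | zero => exact (map_zero _).trans ((congrArg _ (map_zero _)).trans (map_zero _)).symm
  | el w y =>
    refine Eq.trans ?_ (DGM.lT_smul (H.pl X).lin (Om.pb (iB ℂ (RQ G s X) K.O.R) w) _).symm
    exact congrArg (Om.pb (qR K s X) w • ·) ((H.ft_inl X y).trans
      (dr_factor (A := RQ G s X) (bT (QS D G s) X) (H.trL X) (bC K s X) y).symm)
  | add x y hx hy =>
    exact (map_add _ x y).trans ((congrArg₂ (· + ·) hx hy).trans
      ((congrArg _ (map_add _ x y)).trans (map_add _ _ _)).symm)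

variable (xd : XD D) {i : I} {Q : OmM (RQ G s (Zo xd i))} (σ : Sg Q)

/-- **The Künneth comparison is a quasi-isomorphism.** -/
theorem kap_qis (B : Fr Q) (h : FC H.fa) (X : FB D G s i) : GD.Qis ((H.kap xd σ).app X) :=
  hq_kv (A := RQ G s X.ob) (B := K.O.R) (b := bT (QS D G s) X.ob) (M := H.K X.ob)
    (b' := bC K s X.ob) (L := H.KC X.ob) σ B (qf (FB.wr K xd X)) (H.pl X.ob).u (H.pl X.ob).smul
    (H.qis_pull h X.ob) (DGM.DRg.map (bC K s X.ob) (H.pl X.ob)) (DGM.lT_smul (H.pl X.ob).lin)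
    (fun x => (congrArg (· ∈ fge (H.KC X.ob).M.V 1) (sub_self _)).mpr (zero_mem _))
    (H.kp0 X.ob) (H.kp0_eq X.ob) fun w x => H.kp0_smul _ x

theorem kap_tot (B : Fr Q) (h : FC H.fa) (P : CO (FB D G s i)) :
    GD.Qis ((H.kap xd σ).cs P).tot := (H.kap xd σ).qis_tot P fun _ => H.kap_qis xd σ B h _

end HG

namespace OT

variable (K) (xd : XD D) {i : I} {Q : OmM (RQ G s (Zo xd i))} (F : OT (QS D G s)) (σ : Sg Q)

/-- The value on the universal point. -/
abbrev FZ (i : I) : OmM (RQ G s (Zo xd i)) := F.F (Zo xd i)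

/-- The level `0` of the augmentation. -/
def au0 : GD.Hom (Hm σ (F.FZ xd i)) ((F.MP K xd σ).obj ((ptF K xd s i).P 0)) :=
  Hm.post (F := F.FZ xd i) (F' := OmM.res (qf (inr K xd s (Zo xd i))) (F.F (cop K (Zo xd i)))) σ
    (F.th (inr K xd s (Zo xd i)) (dl_inR xd _)) (F.t_smul _)

theorem dl_fold (X : QO D) : (QS D G s).dl (fold K s X) = 1 :=
  dl_of_α (X := fb (cop K X)) (Y := fb X) rfl

theorem dl_fold2 (X : QO D) : (QS D G s).dl (fold2 K s X) = 1 :=
  dl_of_α (X := fb (cop K (cop K X))) (Y := fb (cop K X)) rfl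

/-- The retraction at level `0`. -/
def rt0 : GD.Hom ((F.MP K xd σ).obj ((ptF K xd s i).P 0)) (Hm σ (F.FZ xd i)) :=
  Hm.post (F := OmM.res (qf (inr K xd s (Zo xd i))) (F.F (cop K (Zo xd i)))) (F' := F.FZ xd i) σ
    (F.th (fold K s (Zo xd i)) (dl_fold K _)) fun w x =>
      (F.t_smul (fold K s (Zo xd i)) _ x).trans (congrArg (· • F.t (fold K s (Zo xd i)) x)
        ((Om.pb_pb _ _ w).trans ((congrArg (fun k => Om.pb (qf k) w) (inr_foldZ K xd i)).trans
          (Om.pb_id w))))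

theorem mpv_au0 (μ : (Hm σ (F.FZ xd i)).V) (q : Q.M.V) :
    F.mpv xd σ ((F.au0 K xd σ).f μ) q = F.t (inr K xd s (Zo xd i)) (μ q) := rfl

theorem rt0_apply (ξ : ((F.MP K xd σ).obj ((ptF K xd s i).P 0)).V) (q : Q.M.V) :
    (F.rt0 K xd σ).f ξ q = F.t (fold K s (Zo xd i)) (F.mpv xd σ ξ q) := rfl

theorem rt0_au0 (μ : (Hm σ (F.FZ xd i)).V) : (F.rt0 K xd σ).f ((F.au0 K xd σ).f μ) = μ :=
  LinearMap.ext fun q => (F.t_comp _ _ _).symm.trans
    ((congrArg (fun u => F.t u (μ q)) (inr_foldZ K xd i)).trans (F.t_id _ _))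

/-- The augmentation. -/
def aug0 : CS.Aug ((F.MP K xd σ).cs (ptF K xd s i)) (Hm σ (F.FZ xd i)) where
  e := F.au0 K xd σ
  eq μ := LinearMap.ext fun q => F.t_eq (conCon K xd s i).aug (μ q)

/-- The morphism to the total. -/
def aug : GD.Hom (Hm σ (F.FZ xd i)) ((F.MP K xd σ).cs (ptF K xd s i)).Tot :=
  (F.aug0 K xd σ).tot

theorem aug_zero (μ : (Hm σ (F.FZ xd i)).V) (q : Q.M.V) :
    F.mpv xd σ ((F.aug K xd σ).f μ 0) q = F.t (inr K xd s (Zo xd i)) (μ q) :=
  congrArg (fun ξ => F.mpv xd σ ξ q) ((F.aug0 K xd σ).tot_zero μ)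

theorem aug_succ (μ : (Hm σ (F.FZ xd i)).V) (k : ℕ) : (F.aug K xd σ).f μ (k + 1) = 0 :=
  (F.aug0 K xd σ).tot_succ μ k

/-- The retraction of the total. -/
def ret : GD.Hom ((F.MP K xd σ).cs (ptF K xd s i)).Tot (Hm σ (F.FZ xd i)) :=
  CS.fromZero (X := (F.MP K xd σ).cs (ptF K xd s i)) (F.rt0 K xd σ)

theorem ret_apply (v : ((F.MP K xd σ).cs (ptF K xd s i)).Tot.V) (q : Q.M.V) :
    (F.ret K xd σ).f v q = F.t (fold K s (Zo xd i)) (F.mpv xd σ (v 0) q) := rfl

theorem ret_aug (μ : (Hm σ (F.FZ xd i)).V) : (F.ret K xd σ).f ((F.aug K xd σ).f μ) = μ :=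
  (congrArg (F.rt0 K xd σ).f ((F.aug0 K xd σ).tot_zero μ)).trans (F.rt0_au0 K xd σ μ)

/-- The codegeneracies. -/
def sM (k : ℕ) : GD.Hom ((F.MP K xd σ).obj ((ptF K xd s i).P (k + 1)))
    ((F.MP K xd σ).obj ((ptF K xd s i).P k)) :=
  F.mpM (K.gs D s).good σ (fold2 K s ((ptS K xd s i).P k)) (dl_fold2 K _)
    (inr_fold2 (s := s) K xd ((ptS K xd s i).P k))

/-- **The augmentation is a quasi-isomorphism.** -/
theorem aug_q : GD.Qis (F.aug K xd σ) :=
  CS.qis_of_last (F.aug0 K xd σ) (F.sM K xd σ) (F.rt0 K xd σ) (F.rt0_au0 K xd σ)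
    (fun η => LinearMap.ext fun q => F.t_eq (conCon K xd s i).zero (F.mpv xd σ η q))
    (fun k η => LinearMap.ext fun q => (F.t_comp _ _ _).symm.trans
      ((congrArg (fun u => F.t u (F.mpv xd σ η q)) ((conCon K xd s i).last k)).trans (F.t_id _ _)))
    fun k j hj η => LinearMap.ext fun q =>
      F.t_eq ((conCon K xd s i).rest k j hj) (F.mpv xd σ η q)

theorem ret_q : GD.Qis (F.ret K xd σ) :=
  GD.Qis.of_comp_right (F.aug_q K xd σ) (qis_congr (fun μ => (F.ret_aug K xd σ μ).symm)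
    (GD.Qis.id _))

end OT

end

end Vale.Agent.P286EX
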