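import Vale.Agent.P286EXK.Kv
import Vale.Agent.P286EX.Spec
import Vale.Agent.P286EX3.Gau
import Vale.Agent.P286EXC.Mid

/-!
# The complexes of maps to the values on the coproducts
-/

set_option linter.all false

namespace Vale.Agent.P286EX

open CategoryTheory TensorProduct Vale.Agent.P286 Vale.Agent.P286.St Vale.Agent.P286.H847
  Vale.Agent.P286.H710 Vale.Agent.P286.H697 Vale.Agent.P286E
open Vale.Agent.P286.H761 (CO CS)

noncomputable section

section Gen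

variable {T : TSite}

variable {Z W W' W'' : T.C} {Q : OmM (T.R Z)}

/-- The maps to the value on an object under `Z`. -/
abbrev OT.mp (F : OT T) (σ : Sg Q) (w : Z ⟶ W) : GD := Hm σ (OmM.res (T.f w) (F.F W))

/-- The composition with a semilinear morphism. -/
def Hm.postS {A B C : Type} [CommRing A] [Algebra ℂ A] [CommRing B] [Algebra ℂ B] [CommRing C]
    [Algebra ℂ C] {Q : OmM A} (σ : Sg Q) {F : OmM B} {F' : OmM C} (f : A →ₐ[ℂ] B) (f' : A →ₐ[ℂ] C)
    (g : B →ₐ[ℂ] C) (e : g.comp f = f') (u : GD.Hom F.M F'.M)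
    (hu : ∀ (w : Om ℂ B) x, u.f (w • x) = Om.pb g w • u.f x) :
    GD.Hom (Hm σ (OmM.res f F)) (Hm σ (OmM.res f' F')) :=
  Hm.post (F := OmM.res f F) (F' := OmM.res f' F') σ u fun w x =>
    (hu (Om.pb f w) x).trans (congrArg (· • u.f x)
      ((Om.pb_pb f g w).trans (congrArg (fun k : A →ₐ[ℂ] C => Om.pb k w) e)))

theorem Hm.postS_apply {A B C : Type} [CommRing A] [Algebra ℂ A] [CommRing B] [Algebra ℂ B]
    [CommRing C] [Algebra ℂ C] {Q : OmM A} (σ : Sg Q) {F : OmM B} {F' : OmM C} (f : A →ₐ[ℂ] B)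
    (f' : A →ₐ[ℂ] C) (g : B →ₐ[ℂ] C) (e : g.comp f = f') (u : GD.Hom F.M F'.M)
    (hu : ∀ (w : Om ℂ B) x, u.f (w • x) = Om.pb g w • u.f x) (η : (Hm σ (OmM.res f F)).V)
    (q : Q.M.V) : OmM.un ((Hm.postS σ f f' g e u hu).f η q) = u.f (OmM.un (η q)) := rfl

/-- The transition maps. -/
def OT.mpM (F : OT T) (hT : Good T) (σ : Sg Q) {w : Z ⟶ W} {w' : Z ⟶ W'} (u : W ⟶ W')
    (h : T.dl u = 1) (e : w ≫ u = w') : GD.Hom (F.mp σ w) (F.mp σ w') :=
  Hm.postS σ (T.f w) (T.f w') (T.f u) ((hT.fcomp w u).symm.trans (congrArg T.f e)) (F.th u h)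
    (F.t_smul u)

theorem OT.mpM_apply (F : OT T) (hT : Good T) (σ : Sg Q) {w : Z ⟶ W} {w' : Z ⟶ W'} (u : W ⟶ W')
    (h : T.dl u = 1) (e : w ≫ u = w') (η : (F.mp σ w).V) (q : Q.M.V) :
    OmM.un ((F.mpM hT σ u h e).f η q) = F.t u (OmM.un (η q)) := rfl

end Gen

variable {I : Type} [SmallCategory I] {D : CD I} {G : Grp} {s : ℂ} {K : GK G}

/-- The homomorphism of an arrow. -/
def qf {X Y : QO D} (u : Ar G s X Y) : RQ G s X →ₐ[ℂ] RQ G s Y := QM.φ u

theorem qf_eq {X Y : QO D} (u : Ar G s X Y) : (QS D G s).f u = qf u := rfl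

theorem qf_comp {X Y Z : QO D} (u : Ar G s X Y) (v : Ar G s Y Z) :
    qf (u ≫ v) = (qf v).comp (qf u) := rfl

theorem qf_id (X : QO D) : qf (idA G s X) = AlgHom.id ℂ _ := rfl

variable (K) in
/-- The functions on the group as functions on the coproduct. -/
def qR (s : ℂ) (X : QO D) : K.O.R →ₐ[ℂ] RQ G s (cop K X) := cR K X.A.R

theorem dl_inL (X : QO D) : (QS D G s).dl (inl K s X) = 1 :=
  dl_of_α (X := fb X) (Y := fb (cop K X)) rfl

theorem dl_inR (xd : XD D) (X : QO D) : (QS D G s).dl (inr K xd s X) = 1 :=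
  dl_of_α (X := fb (Zo xd X.i)) (Y := fb (cop K X)) rfl

theorem dl_copM {X Y : QO D} {u : Ar G s X Y} (h : (QS D G s).dl u = 1) :
    (QS D G s).dl (copM K u) = 1 :=
  (congrArg (fun β : X.i ⟶ Y.i => cL K Y.A.R (Y.x (D.r β))) (copM_α K u)).trans
    ((congrArg (cL K Y.A.R) h).trans (map_one _))

theorem qf_copM {X Y : QO D} (u : Ar G s X Y) :
    (qf (copM K u)).comp (qf (inl K s X)) = (qf (inl K s Y)).comp (qf u) :=
  congrArg qf (inl_copM K u)

namespace HG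

variable (H : HG (K.gs D s)) {X Y Z : QO D}

/-- The de Rham complex over `X`. -/
abbrev F (X : QO D) : OmM (RQ G s X) := H.gau.F X

/-- The transition maps of the de Rham complexes. -/
abbrev ft (u : Ar G s X Y) : (H.F X).M.V →ₗ[ℂ] (H.F Y).M.V := H.gau.t u

theorem ft_smul (u : Ar G s X Y) (w : Om ℂ (RQ G s X)) (y : (H.F X).M.V) :
    H.ft u (w • y) = Om.pb (qf u) w • H.ft u y := H.gau.t_smul u w y

theorem ft_comp (u : Ar G s X Y) (v : Ar G s Y Z) (y : (H.F X).M.V) :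
    H.ft (u ≫ v) y = H.ft v (H.ft u y) := H.gau.t_comp u v y

theorem ft_id (y : (H.F X).M.V) : H.ft (idA G s X) y = y := H.gau.t_id X y

/-- The forms on the group with values in the de Rham complex over `X`. -/
def KV (X : QO D) : OmM (RQ G s (cop K X)) :=
  kvO (A := RQ G s X) K.O.R (bT (QS D G s) X) (H.K X) (bT (QS D G s) (cop K X))

/-- The element `w ⊗ y`. -/
def ke (X : QO D) (w : Om ℂ K.O.R) (y : (H.F X).M.V) : (H.KV X).M.V :=
  kel (A := RQ G s X) (b := bT (QS D G s) X) (M := H.K X) (bT (QS D G s) (cop K X)) w y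

/-- The inclusion `y ↦ 1 ⊗ y`. -/
def jk (X : QO D) : GD.Hom (H.F X).M (H.KV X).M :=
  kj (A := RQ G s X) (b := bT (QS D G s) X) (M := H.K X) (bT (QS D G s) (cop K X))

theorem jk_apply (y : (H.F X).M.V) : (H.jk X).f y = H.ke X 1 y := rfl

theorem jk_smul (w : Om ℂ (RQ G s X)) (y : (H.F X).M.V) :
    (H.jk X).f (w • y) = Om.pb (qf (inl K s X)) w • (H.jk X).f y :=
  (pbL_kel (A := RQ G s X) (b := bT (QS D G s) X) (M := H.K X) w y).symm

theorem qR_ke (u w : Om ℂ K.O.R) (y : (H.F X).M.V) :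
    Om.pb (qR K s X) u • H.ke X w y = H.ke X (u * w) y :=
  pbR_kel (A := RQ G s X) (b := bT (QS D G s) X) (M := H.K X) u w y

theorem ke_eq (w : Om ℂ K.O.R) (y : (H.F X).M.V) :
    H.ke X w y = Om.pb (qR K s X) w • (H.jk X).f y := by rw [jk_apply, qR_ke, mul_one]

theorem inl_ke (a : RQ G s X) (w : Om ℂ K.O.R) (y : (H.F X).M.V) :
    qf (inl K s X) a • H.ke X w y = H.ke X w (a • y) :=
  iL_kel (A := RQ G s X) (b := bT (QS D G s) X) (M := H.K X) a w y

theorem qR_smul_ke (a : K.O.R) (w : Om ℂ K.O.R) (y : (H.F X).M.V) :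
    qR K s X a • H.ke X w y = H.ke X (a • w) y :=
  iR_kel (A := RQ G s X) (b := bT (QS D G s) X) (M := H.K X) a w y

theorem d_ke (w : Om ℂ K.O.R) (y : (H.F X).M.V) : (H.KV X).M.d (H.ke X w y) =
    H.ke X (Om.d w) y + H.ke X (Om.sg w) ((H.F X).M.d y) := rfl

theorem ke_add (w : Om ℂ K.O.R) (y y' : (H.F X).M.V) :
    H.ke X w (y + y') = H.ke X w y + H.ke X w y' := KV.el_add w y y'

theorem add_ke (w w' : Om ℂ K.O.R) (y : (H.F X).M.V) :
    H.ke X (w + w') y = H.ke X w y + H.ke X w' y := KV.add_el w w' y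

theorem ke_mem {p : ℕ} {j m : ℤ} (h : (p : ℤ) + j = m) {w : Om ℂ K.O.R} (hw : w ∈ Om.gr ℂ K.O.R p)
    {y : (H.F X).M.V} (hy : y ∈ (H.F X).M.gr j) : H.ke X w y ∈ (H.KV X).M.gr m :=
  kel_mem (A := RQ G s X) (b := bT (QS D G s) X) (M := H.K X) h hw hy

theorem KV_ind {Q : (H.KV X).M.V → Prop} (zero : Q 0) (el : ∀ w y, Q (H.ke X w y))
    (add : ∀ x y, Q x → Q y → Q (x + y)) (x : (H.KV X).M.V) : Q x :=
  kv_ind (A := RQ G s X) (b := bT (QS D G s) X) (M := H.K X) (Q := Q) zero el add x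

theorem KV_gr_ind {m : ℤ} {Q : (H.KV X).M.V → Prop} (zero : Q 0)
    (el : ∀ (p : ℕ) (j : ℤ), (p : ℤ) + j = m → ∀ w ∈ Om.gr ℂ K.O.R p, ∀ y ∈ (H.F X).M.gr j,
      Q (H.ke X w y))
    (add : ∀ x y, Q x → Q y → Q (x + y)) {z : (H.KV X).M.V} (hz : z ∈ (H.KV X).M.gr m) : Q z :=
  kv_gr_ind (A := RQ G s X) (b := bT (QS D G s) X) (M := H.K X) (Q := Q) zero el add hz

/-- The linear map `w ⊗ y ↦ w · t y`. -/
def kL (X : QO D) {C : Type} [CommRing C] [Algebra ℂ C] (F : OmM C) (g : K.O.R →ₐ[ℂ] C)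
    (t : (H.F X).M.V →ₗ[ℂ] F.M.V) : (H.KV X).M.V →ₗ[ℂ] F.M.V :=
  kvL (A := RQ G s X) (b := bT (QS D G s) X) (M := H.K X) (bT (QS D G s) (cop K X)) F g t

theorem kL_ke {C : Type} [CommRing C] [Algebra ℂ C] (F : OmM C) (g : K.O.R →ₐ[ℂ] C)
    (t : (H.F X).M.V →ₗ[ℂ] F.M.V) (w : Om ℂ K.O.R) (y : (H.F X).M.V) :
    H.kL X F g t (H.ke X w y) = Om.pb g w • t y := rfl

theorem kL_smul {C : Type} [CommRing C] [Algebra ℂ C] (F : OmM C) (ψ : RQ G s (cop K X) →ₐ[ℂ] C)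
    (t : (H.F X).M.V →ₗ[ℂ] F.M.V)
    (ht : ∀ (u : Om ℂ (RQ G s X)) y, t (u • y) = Om.pb (ψ.comp (qf (inl K s X))) u • t y)
    (u : Om ℂ (RQ G s (cop K X))) (z : (H.KV X).M.V) :
    H.kL X F (ψ.comp (qR K s X)) t (u • z) = Om.pb ψ u • H.kL X F (ψ.comp (qR K s X)) t z :=
  kv_lin (A := RQ G s X) (b := bT (QS D G s) X) (M := H.K X) (b' := bT (QS D G s) (cop K X)) F ψ t
    ht (H.kL X F (ψ.comp (qR K s X)) t).toAddMonoidHom (fun _ _ => rfl) u z

/-- The morphism `w ⊗ y ↦ w · t y`. -/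
def kA (X : QO D) {C : Type} [CommRing C] [Algebra ℂ C] (F : OmM C) (g : K.O.R →ₐ[ℂ] C)
    (t : GD.Hom (H.F X).M F.M) : GD.Hom (H.KV X).M F.M :=
  kvA (A := RQ G s X) (b := bT (QS D G s) X) (M := H.K X) (bT (QS D G s) (cop K X)) F g t

theorem kA_f {C : Type} [CommRing C] [Algebra ℂ C] (F : OmM C) (g : K.O.R →ₐ[ℂ] C)
    (t : GD.Hom (H.F X).M F.M) : (H.kA X F g t).f = H.kL X F g t.f := rfl

/-- The transition maps. -/
def kvt (u : Ar G s X Y) : (H.KV X).M.V →ₗ[ℂ] (H.KV Y).M.V :=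
  H.kL X (H.KV Y) ((qf (copM K u)).comp (qR K s X)) ((H.jk Y).f ∘ₗ H.ft u)

theorem kvt_el (u : Ar G s X Y) (w : Om ℂ K.O.R) (y : (H.F X).M.V) : H.kvt u (H.ke X w y) =
    Om.pb (qf (copM K u)) (Om.pb (qR K s X) w) • (H.jk Y).f (H.ft u y) := by
  rw [Om.pb_pb]; rfl

theorem kvt_jk (u : Ar G s X Y) (y : (H.F X).M.V) :
    H.kvt u ((H.jk X).f y) = (H.jk Y).f (H.ft u y) := by
  rw [jk_apply, kvt_el, map_one, map_one, one_smul]

theorem kvt_smul (u : Ar G s X Y) (w : Om ℂ (RQ G s (cop K X))) (z : (H.KV X).M.V) :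
    H.kvt u (w • z) = Om.pb (qf (copM K u)) w • H.kvt u z :=
  H.kL_smul (H.KV Y) (qf (copM K u)) _ (fun v y => by
    rw [LinearMap.comp_apply, LinearMap.comp_apply, ft_smul, jk_smul, Om.pb_pb, qf_copM]) w z

theorem kvt_id (z : (H.KV X).M.V) : H.kvt (idA G s X) z = z := by
  induction z using H.KV_ind with
  | zero => rw [map_zero]
  | el w y => rw [kvt_el, copM_id, qf_id, Om.pb_id, ft_id, ke_eq]
  | add x y hx hy => rw [map_add, hx, hy]

theorem kvt_comp (u : Ar G s X Y) (v : Ar G s Y Z) (z : (H.KV X).M.V) :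
    H.kvt (u ≫ v) z = H.kvt v (H.kvt u z) := by
  induction z using H.KV_ind with
  | zero => rw [map_zero, map_zero, map_zero]
  | el w y =>
    rw [kvt_el, kvt_el, kvt_smul, kvt_jk, ft_comp, copM_comp, qf_comp,
      Om.pb_pb (qf (copM K u)) (qf (copM K v))]
  | add x y hx hy => rw [map_add, hx, hy, map_add, map_add]

/-- The transition maps of the arrows without twist. -/
def kvH (u : Ar G s X Y) (h : (QS D G s).dl u = 1) : GD.Hom (H.KV X).M (H.KV Y).M :=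
  H.kA X (H.KV Y) ((qf (copM K u)).comp (qR K s X)) ((H.jk Y).comp (H.gau.th u h))

theorem kvH_f (u : Ar G s X Y) (h : (QS D G s).dl u = 1) : (H.kvH u h).f = H.kvt u := rfl

/-- The Künneth map. -/
def kp0 (X : QO D) : GD.Hom (H.KV X).M (H.F (cop K X)).M :=
  H.kA X (H.F (cop K X)) (qR K s X) (H.gau.th (inl K s X) (dl_inL X))

theorem kp0_el (w : Om ℂ K.O.R) (y : (H.F X).M.V) :
    (H.kp0 X).f (H.ke X w y) = Om.pb (qR K s X) w • H.ft (inl K s X) y := rfl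

theorem kp0_jk (y : (H.F X).M.V) : (H.kp0 X).f ((H.jk X).f y) = H.ft (inl K s X) y := by
  rw [jk_apply, kp0_el, map_one, one_smul]

theorem kp0_smul (w : Om ℂ (RQ G s (cop K X))) (z : (H.KV X).M.V) :
    (H.kp0 X).f (w • z) = w • (H.kp0 X).f z :=
  (H.kL_smul (H.F (cop K X)) (AlgHom.id ℂ _) (H.ft (inl K s X)) (H.ft_smul _) w z).trans
    (congrArg (· • (H.kp0 X).f z) (Om.pb_id w))

theorem kp0_kvt (u : Ar G s X Y) (z : (H.KV X).M.V) :
    (H.kp0 Y).f (H.kvt u z) = H.ft (copM K u) ((H.kp0 X).f z) := by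
  induction z using H.KV_ind with
  | zero => rw [map_zero, map_zero, map_zero, map_zero]
  | el w y => rw [kvt_el, kp0_smul, kp0_jk, kp0_el, ft_smul, ← ft_comp, ← ft_comp, inl_copM]
  | add x y hx hy => rw [map_add, map_add, hx, hy, map_add, map_add]

end HG

/-! ### The fibre category -/

/-- The points of the chart `i` with the arrows over the identity. -/
def FB (D : CD I) (G : Grp) (s : ℂ) (i : I) : Type 1 := QF D i

/-- The test object. -/
abbrev FB.ob {i : I} (X : FB D G s i) : QO D := QF.ob X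

instance (i : I) : Category.{0} (FB D G s i) where
  Hom X Y := {u : Ar G s X.ob Y.ob // QM.α u = 𝟙 i}
  id X := ⟨idA G s X.ob, rfl⟩
  comp u v := ⟨u.1 ≫ v.1, (comp_α u.1 v.1).trans (by rw [u.2, v.2]; exact Category.id_comp _)⟩
  id_comp u := Subtype.ext (ar_id_comp u.1)
  comp_id u := Subtype.ext (ar_comp_id u.1)
  assoc u v w := Subtype.ext (ar_assoc u.1 v.1 w.1)

/-- The arrow of test objects. -/
def FB.ar {i : I} {X Y : FB D G s i} (u : X ⟶ Y) : Ar G s X.ob Y.ob := Subtype.val u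

theorem FB.ar_α {i : I} {X Y : FB D G s i} (u : X ⟶ Y) : QM.α (FB.ar u) = 𝟙 i := Subtype.property u

theorem FB.ar_dl {i : I} {X Y : FB D G s i} (u : X ⟶ Y) : (QS D G s).dl (FB.ar u) = 1 :=
  dl_of_α (FB.ar_α u)

theorem FB.ar_fib {i : I} {X Y : FB D G s i} (u : X ⟶ Y) : Fib (FB.ar u) := ⟨rfl, FB.ar_α u⟩

/-- The semi-cosimplicial object in the fibre category. -/
def Stt.fco {i : I} (S : Stt K D s i) : CO (FB D G s i) where
  P := S.PF
  fc k j := ⟨S.fc k j, S.fc_α k j⟩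
  rel k a b ha hb := Subtype.ext (S.rel k a b ha hb)

theorem Stt.fco_ar {i : I} (S : Stt K D s i) (k j : ℕ) : FB.ar (S.fco.fc k j) = S.fc k j := rfl

variable (K) in
/-- The powers of the universal point in the fibre category. -/
abbrev ptF (xd : XD D) (s : ℂ) (i : I) : CO (FB D G s i) := (ptS K xd s i).fco

variable (xd : XD D) {i : I} {Q : OmM (RQ G s (Zo xd i))}

variable (K) in
/-- The arrow from the universal point to the coproduct. -/
def FB.wr (X : FB D G s i) : Ar G s (Zo xd i) (cop K X.ob) := inr K xd s X.ob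

theorem FB.wr_ar {X Y : FB D G s i} (u : X ⟶ Y) :
    FB.wr K xd X ≫ copM K (FB.ar u) = FB.wr K xd Y := inr_copM' K xd _ (FB.ar_α u)

/-- The maps to the forms on the group with values in the de Rham complex. -/
def HG.MK (H : HG (K.gs D s)) (σ : Sg Q) : H761.GF (FB D G s i) where
  obj X := Hm σ (OmM.res (qf (FB.wr K xd X)) (H.KV X.ob))
  map u := Hm.postS σ _ _ (qf (copM K (FB.ar u))) (congrArg qf (FB.wr_ar xd u))
    (H.kvH (FB.ar u) (FB.ar_dl u)) (H.kvt_smul _)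
  map_id X η := LinearMap.ext fun q => H.kvt_id _
  map_comp u v η := LinearMap.ext fun q => H.kvt_comp (FB.ar u) (FB.ar v) _

variable (K) in
/-- The maps to the values on the coproducts. -/
def OT.MP (F : OT (QS D G s)) (σ : Sg Q) : H761.GF (FB D G s i) where
  obj X := F.mp σ (FB.wr K xd X)
  map u := F.mpM (K.gs D s).good σ (copM K (FB.ar u)) (dl_copM (FB.ar_dl u)) (FB.wr_ar xd u)
  map_id X η := LinearMap.ext fun q =>
    (congrArg (fun v => F.t v (OmM.un (η q))) (copM_id K X.ob)).trans (F.t_id _ _)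
  map_comp u v η := LinearMap.ext fun q =>
    (congrArg (fun v => F.t v (OmM.un (η q))) (copM_comp K (FB.ar u) (FB.ar v))).trans
      (F.t_comp _ _ _)

/-- The Künneth comparison. -/
def HG.kap (H : HG (K.gs D s)) (σ : Sg Q) : H761.GF.Nat' (H.MK xd σ) (H.gau.MP K xd σ) where
  app X := Hm.post (F := OmM.res (qf (FB.wr K xd X)) (H.KV X.ob))
    (F' := OmM.res (qf (FB.wr K xd X)) (H.F (cop K X.ob))) σ (H.kp0 X.ob)
    fun w x => H.kp0_smul _ x
  nat u η := LinearMap.ext fun q => H.kp0_kvt (FB.ar u) _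

/-- The values of a map to the forms on the group. -/
def HG.mkv (H : HG (K.gs D s)) (σ : Sg Q) {X : FB D G s i} (ξ : ((H.MK xd σ).obj X).V)
    (q : Q.M.V) : (H.KV X.ob).M.V := OmM.un ((show (Hm σ _).V from ξ) q)

/-- The values of a map to the value on the coproduct. -/
def OT.mpv (F : OT (QS D G s)) (σ : Sg Q) {X : FB D G s i} (ξ : ((F.MP K xd σ).obj X).V)
    (q : Q.M.V) : (F.F (cop K X.ob)).M.V := OmM.un ((show (Hm σ _).V from ξ) q)

theorem HG.mkv_map (H : HG (K.gs D s)) (σ : Sg Q) {X Y : FB D G s i} (u : X ⟶ Y)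
    (ξ : ((H.MK xd σ).obj X).V) (q : Q.M.V) :
    H.mkv xd σ (((H.MK xd σ).map u).f ξ) q = H.kvt (FB.ar u) (H.mkv xd σ ξ q) := rfl

theorem OT.mpv_map (F : OT (QS D G s)) (σ : Sg Q) {X Y : FB D G s i} (u : X ⟶ Y)
    (ξ : ((F.MP K xd σ).obj X).V) (q : Q.M.V) :
    F.mpv xd σ (((F.MP K xd σ).map u).f ξ) q = F.t (copM K (FB.ar u)) (F.mpv xd σ ξ q) := rfl

theorem HG.mpv_kap (H : HG (K.gs D s)) (σ : Sg Q) {X : FB D G s i} (ξ : ((H.MK xd σ).obj X).V)
    (q : Q.M.V) : H.gau.mpv xd σ (((H.kap xd σ).app X).f ξ) q =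
      (H.kp0 X.ob).f (H.mkv xd σ ξ q) := rfl

end

end Vale.Agent.P286EX
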