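import Vale.Agent.P286EX7.Fd
import Vale.Agent.P286.H710.KunQ

/-!
# The forms on a second factor with values in a de Rham complex
-/

set_option linter.all false

namespace Vale.Agent.P286EX

open TensorProduct Vale.Agent.P286 Vale.Agent.P286.H847 Vale.Agent.P286.H710 Vale.Agent.P286.H697
  Vale.Agent.P286.H847.SGD Vale.Agent.P286.H44

noncomputable section

variable {A B C : Type} [CommRing A] [Algebra ℂ A] [CommRing B] [Algebra ℂ B] [CommRing C]
  [Algebra ℂ C]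

theorem OmM.asmul (F : OmM A) (a : A) (x : F.M.V) : algebraMap A (Om ℂ A) a • x = a • x :=
  algebraMap_smul _ a x

/-- The restriction of a module over the forms along a homomorphism. -/
def OmM.res (f : A →ₐ[ℂ] B) (F : OmM B) : OmM A :=
  letI m1 : Module A F.M.V := Module.compHom F.M.V (f : A →+* B)
  letI m2 : Module (Om ℂ A) F.M.V := Module.compHom F.M.V (Om.pb f)
  { M := F.M
    am := m1
    mod := m2
    tow := ⟨fun c w x => by
      change Om.pb f (c • w) • x = c • Om.pb f w • x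
      rw [Om.pb_csmul, smul_assoc]⟩
    tw := ⟨fun c a x => by
      change f (c • a) • x = c • f a • x
      rw [map_smul, smul_assoc]⟩
    tw' := ⟨fun a w x => by
      change Om.pb f (a • w) • x = f a • Om.pb f w • x
      rw [Om.pb_smul, smul_assoc]⟩
    leib := fun w x => by
      change F.M.d (Om.pb f w • x) = Om.pb f (Om.d w) • x + Om.pb f (Om.sg w) • F.M.d x
      rw [F.leib, Om.pb_d, Om.pb_sg]
    smul_gr := fun p m w x hw hx => F.smul_gr p m _ x (Om.pb_mem f hw) hx }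

/-- An element of the restriction as an element of the module. -/
abbrev OmM.un {f : A →ₐ[ℂ] B} {F : OmM B} (x : (OmM.res f F).M.V) : F.M.V := x

/-- An element of the module as an element of the restriction. -/
abbrev OmM.rs (f : A →ₐ[ℂ] B) {F : OmM B} (x : F.M.V) : (OmM.res f F).M.V := x

theorem OmM.res_M (f : A →ₐ[ℂ] B) (F : OmM B) : (OmM.res f F).M = F.M := rfl

theorem OmM.res_smul (f : A →ₐ[ℂ] B) (F : OmM B) (w : Om ℂ A) (x : (OmM.res f F).M.V) :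
    OmM.un (w • x) = Om.pb f w • OmM.un x := rfl

theorem OmM.res_asmul (f : A →ₐ[ℂ] B) (F : OmM B) (a : A) (x : (OmM.res f F).M.V) :
    OmM.un (a • x) = f a • OmM.un x := rfl

/-- The restriction of a filtration. -/
def Fil.res (f : A →ₐ[ℂ] B) {F : OmM B} (Φ : Fil F) : Fil (OmM.res f F) where
  P := Φ.P
  N := Φ.N
  top := Φ.top
  bot := Φ.bot
  anti := Φ.anti
  d := Φ.d
  smul p q w hw x hx := Φ.smul p q _ (Om.pb_mem f hw) x hx

theorem FQis.res (f : A →ₐ[ℂ] B) {F F' : OmM B} {Φ : Fil F} {Φ' : Fil F'} {u : GD.Hom F.M F'.M}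
    (h : FQis Φ Φ' u) : FQis (F := OmM.res f F) (F' := OmM.res f F') (Φ.res f) (Φ'.res f) u :=
  ⟨h.fil, h.ex⟩

variable (B) (b : DB ℂ A) (M : DGM A)

/-- The graded differential space `Ω_B ⊗ DR M`. -/
abbrev kvG : GD := tens (OmS B) (DGM.DRg b M)

variable {B M}

theorem kv_gr {m : ℤ} {z : KV ℂ A B M.M.V} : z ∈ (kvG B b M).gr m ↔ z ∈ kg B M m := by
  refine ⟨fun h => ?_, kg_le M b m z⟩
  have : tgr (OmS B).toGD (DGM.DRg b M) m ≤ kg B M m := tgr_le fun i j x y e hx hy => by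
    rcases hx with rfl | ⟨p, rfl, hx⟩
    · rw [zero_tmul]; exact zero_mem _
    · exact el_mem_kg M e hx hy
  exact this h

variable (B M) in
/-- The comparison with the de Rham complex of the pull-back. -/
def kv0 (b' : DB ℂ (A ⊗[ℂ] B)) : GD.Hom (kvG B b M) (drO b' (pullD (A ⊗[ℂ] B) b M)).M :=
  act (drO b' (pullD (A ⊗[ℂ] B) b M)) (OmGD.pb (iB ℂ A B)) (sgC_pb (iB ℂ A B))
    ((pullI b M).dr b b')

theorem kv0_eq (b' : DB ℂ (A ⊗[ℂ] B)) (z : KV ℂ A B M.M.V) : (kv0 B b M b').f z =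
    KV.kap (pullT A (A ⊗[ℂ] B) M.M.V) (fun a m => pullT_smul a m) z := by
  induction z using KV.ind with
  | zero => exact (map_zero (kv0 B b M b').f).trans (map_zero _).symm
  | el w y => rfl
  | add x y hx hy =>
    exact (map_add (kv0 B b M b').f x y).trans ((congrArg₂ (· + ·) hx hy).trans (map_add _ x y).symm)

theorem kv0_inj (b' : DB ℂ (A ⊗[ℂ] B)) : Function.Injective (kv0 B b M b').f := fun x y h =>
  (KV.kap_bijective (pullT A (A ⊗[ℂ] B) M.M.V) (fun a m => pullT_smul a m) isBC_pullT).1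
    ((kv0_eq b b' x).symm.trans (h.trans (kv0_eq b b' y)))

theorem kv0_surj (b' : DB ℂ (A ⊗[ℂ] B)) : Function.Surjective (kv0 B b M b').f := fun y => by
  obtain ⟨x, hx⟩ :=
    (KV.kap_bijective (pullT A (A ⊗[ℂ] B) M.M.V) (fun a m => pullT_smul a m) isBC_pullT).2 y
  exact ⟨x, (kv0_eq b b' x).trans hx⟩

theorem kv0_gr (b' : DB ℂ (A ⊗[ℂ] B)) {m : ℤ} {z : (kvG B b M).V}
    (h : (kv0 B b M b').f z ∈ (drO b' (pullD (A ⊗[ℂ] B) b M)).M.gr m) : z ∈ (kvG B b M).gr m := by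
  obtain ⟨x, hx, e⟩ := kap_surj M b m _ h
  rw [← kv0_inj b b' ((kv0_eq b b' x).trans e)]
  exact kg_le M b m x hx

theorem kv0_rho (b' : DB ℂ (A ⊗[ℂ] B)) (u : Om ℂ (A ⊗[ℂ] B)) (z : KV ℂ A B M.M.V) :
    (kv0 B b M b').f (KV.rho ℂ A B M.M.V u z) = u • (kv0 B b M b').f z :=
  (kv0_eq b b' _).trans ((KV.kap_rho _ _ u z).trans (congrArg (u • ·) (kv0_eq b b' z).symm))

variable (B M) in
/-- The module `Ω_B ⊗ DR M` over the forms on `A ⊗ B`. -/
def kvO (b' : DB ℂ (A ⊗[ℂ] B)) : OmM (A ⊗[ℂ] B) :=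
  letI m1 : Module (A ⊗[ℂ] B) (kvG B b M).V := inferInstanceAs (Module _ (KV ℂ A B M.M.V))
  letI m2 : Module (Om ℂ (A ⊗[ℂ] B)) (kvG B b M).V :=
    (Module.compHom (KV ℂ A B M.M.V) (KV.rho ℂ A B M.M.V).toRingHom :)
  have hs : ∀ (u : Om ℂ (A ⊗[ℂ] B)) (z : (kvG B b M).V),
      (kv0 B b M b').f (u • z) = u • (kv0 B b M b').f z := kv0_rho b b'
  { M := kvG B b M
    am := m1
    mod := m2
    tow := ⟨fun c w x => kv0_inj b b' (by rw [hs, map_smul, hs, smul_assoc])⟩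
    tw := inferInstanceAs (IsScalarTower ℂ (A ⊗[ℂ] B) (KV ℂ A B M.M.V))
    tw' := ⟨fun a w x => LinearMap.congr_fun (map_smul (KV.rho ℂ A B M.M.V) a w) x⟩
    leib := fun w x => kv0_inj b b' (by
      rw [(kv0 B b M b').comm, hs, map_add, hs, hs, (kv0 B b M b').comm]
      exact (drO b' (pullD (A ⊗[ℂ] B) b M)).leib w _)
    smul_gr := fun p m w x hw hx => (kv_gr b).2 (kg_rho M hw ((kv_gr b).1 hx)) }

variable {b} {b' : DB ℂ (A ⊗[ℂ] B)}

/-- The element `w ⊗ y`. -/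
def kel (b' : DB ℂ (A ⊗[ℂ] B)) (w : Om ℂ B) (y : (drO b M).M.V) : (kvO B b M b').M.V :=
  KV.el w y

theorem kv_smul (u : Om ℂ (A ⊗[ℂ] B)) (z : (kvO B b M b').M.V) :
    u • z = KV.rho ℂ A B M.M.V u z := rfl

theorem kv_ind {Q : (kvO B b M b').M.V → Prop} (zero : Q 0) (el : ∀ w y, Q (kel b' w y))
    (add : ∀ x y, Q x → Q y → Q (x + y)) (x : (kvO B b M b').M.V) : Q x :=
  KV.ind (Q := Q) zero el add x

theorem kel_add (w : Om ℂ B) (y y' : (drO b M).M.V) :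
    kel b' w (y + y') = kel b' w y + kel b' w y' := KV.el_add w y y'

theorem add_kel (w w' : Om ℂ B) (y : (drO b M).M.V) :
    kel b' (w + w') y = kel b' w y + kel b' w' y := KV.add_el w w' y

theorem kel_zero (w : Om ℂ B) : kel (b := b) (M := M) b' w 0 = 0 := KV.el_zero w

theorem zero_kel (y : (drO b M).M.V) : kel b' (0 : Om ℂ B) y = 0 := KV.zero_el y

theorem neg_kel (w : Om ℂ B) (y : (drO b M).M.V) : kel b' (-w) y = - kel b' w y := KV.neg_el w y

theorem kel_neg (w : Om ℂ B) (y : (drO b M).M.V) : kel b' w (-y) = - kel b' w y := KV.el_neg w y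

theorem kel_csmul (c : ℂ) (w : Om ℂ B) (y : (drO b M).M.V) :
    kel b' w (c • y) = c • kel b' w y := KV.el_csmul c w y

theorem csmul_kel (c : ℂ) (w : Om ℂ B) (y : (drO b M).M.V) :
    kel b' (c • w) y = c • kel b' w y := KV.csmul_el c w y

theorem d_kel (w : Om ℂ B) (y : (drO b M).M.V) : (kvO B b M b').M.d (kel b' w y) =
    kel b' (Om.d w) y + kel b' (Om.sg w) ((drO b M).M.d y) := rfl

theorem kel_mem {p : ℕ} {j m : ℤ} (h : (p : ℤ) + j = m) {w : Om ℂ B} (hw : w ∈ Om.gr ℂ B p)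
    {y : (drO b M).M.V} (hy : y ∈ (drO b M).M.gr j) : kel b' w y ∈ (kvO B b M b').M.gr m :=
  (kv_gr b).2 (el_mem_kg M h hw hy)

theorem kv_gr_ind {m : ℤ} {Q : (kvO B b M b').M.V → Prop} (zero : Q 0)
    (el : ∀ (p : ℕ) (j : ℤ), (p : ℤ) + j = m → ∀ w ∈ Om.gr ℂ B p, ∀ y ∈ (drO b M).M.gr j,
      Q (kel b' w y))
    (add : ∀ x y, Q x → Q y → Q (x + y)) {z : (kvO B b M b').M.V}
    (hz : z ∈ (kvO B b M b').M.gr m) : Q z := by
  have hc : ∀ c : ℂ, Q (c • z) := by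
    refine Submodule.span_induction (p := fun (z : (kvO B b M b').M.V) _ => ∀ c : ℂ, Q (c • z))
      ?_ ?_ ?_ ?_ ((kv_gr b).1 hz)
    · rintro _ ⟨p, j, w, y, hj, hw, hy, rfl⟩ c
      refine (congrArg Q (csmul_kel c w y)).mp (el p j hj _ ?_ y hy)
      rw [cmul_eq]
      exact Submodule.smul_mem _ _ hw
    · intro c
      exact (congrArg Q (smul_zero c)).mpr zero
    · intro x y _ _ hx hy c
      exact (congrArg Q (smul_add c _ _)).mpr (add _ _ (hx c) (hy c))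
    · intro a x _ hx c
      exact (congrArg Q (smul_smul c a _)).mpr (hx _)
  have := hc 1
  rwa [one_smul] at this

theorem pbR_kel (u w : Om ℂ B) (y : (drO b M).M.V) :
    Om.pb (iB ℂ A B) u • kel b' w y = kel b' (u * w) y :=
  LinearMap.congr_fun (KV.rho_iB u) _

theorem pbL_kel (u : Om ℂ A) (y : (drO b M).M.V) :
    Om.pb (iA ℂ A B) u • kel b' 1 y = kel b' 1 (u • y) := KV.rho_iA u y

theorem kel_eq (w : Om ℂ B) (y : (drO b M).M.V) :
    kel b' w y = Om.pb (iB ℂ A B) w • kel b' 1 y := by rw [pbR_kel, mul_one]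

theorem iL_kel (a : A) (w : Om ℂ B) (y : (drO b M).M.V) :
    iA ℂ A B a • kel b' w y = kel b' w (a • y) := KV.iA_smul a w y

theorem iR_kel (a : B) (w : Om ℂ B) (y : (drO b M).M.V) :
    iB ℂ A B a • kel b' w y = kel b' (a • w) y := KV.iB_smul a w y

theorem ddL_kel (a : A) (w : Om ℂ B) (y : (drO b M).M.V) :
    (Om.dd (iA ℂ A B a) : Om ℂ (A ⊗[ℂ] B)) • kel b' w y =
      kel b' (Om.sg w) ((Om.dd a : Om ℂ A) • y) :=
  LinearMap.congr_fun ((KV.rho_dd _).trans (KV.del_iA a)) _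

/-- The inclusion `y ↦ 1 ⊗ y`. -/
def kj (b' : DB ℂ (A ⊗[ℂ] B)) : GD.Hom (drO b M).M (kvO B b M b').M where
  f := ⟨⟨kel b' 1, kel_add 1⟩, fun c y => kel_csmul c 1 y⟩
  comm y := by
    have h : Om.d (1 : Om ℂ B) = 0 := by
      have := Om.d_algebraMap (k := ℂ) (algebraMap ℂ B 1)
      rwa [Om.dd_const, map_one, map_one] at this
    change kel b' 1 _ = (kvO B b M b').M.d (kel b' 1 y)
    rw [d_kel, h, zero_kel, zero_add, map_one]
  deg m y hy := kel_mem (p := 0) (by simp) (by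
    have := Om.alg_mem (k := ℂ) (1 : B)
    rwa [map_one] at this) hy

theorem kj_apply (y : (drO b M).M.V) : (kj b').f y = kel b' 1 y := rfl

/-- Semilinearity of the maps `w ⊗ y ↦ w · t y`. -/
theorem kv_lin (F : OmM C) (ψ : A ⊗[ℂ] B →ₐ[ℂ] C) (t : (drO b M).M.V → F.M.V)
    (ht : ∀ (u : Om ℂ A) y, t (u • y) = Om.pb (ψ.comp (iA ℂ A B)) u • t y)
    (φ : (kvO B b M b').M.V →+ F.M.V)
    (hφ : ∀ w y, φ (kel b' w y) = Om.pb (ψ.comp (iB ℂ A B)) w • t y) (u : Om ℂ (A ⊗[ℂ] B))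
    (z : (kvO B b M b').M.V) : φ (u • z) = Om.pb ψ u • φ z := by
  have hR : ∀ (u : Om ℂ B) z, φ (Om.pb (iB ℂ A B) u • z) = Om.pb ψ (Om.pb (iB ℂ A B) u) • φ z := by
    intro u z
    induction z using kv_ind with
    | zero => rw [smul_zero, map_zero, smul_zero]
    | el w y => rw [pbR_kel, hφ, hφ, map_mul, mul_smul, Om.pb_pb]
    | add x y hx hy => rw [smul_add, map_add, hx, hy, map_add, smul_add]
  have hA : ∀ (a : A) z, φ (algebraMap _ (Om ℂ (A ⊗[ℂ] B)) (iA ℂ A B a) • z) =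
      Om.pb ψ (algebraMap _ (Om ℂ (A ⊗[ℂ] B)) (iA ℂ A B a)) • φ z := by
    intro a z
    induction z using kv_ind with
    | zero => rw [smul_zero, map_zero, smul_zero]
    | el w y =>
      rw [OmM.asmul, iL_kel, hφ, hφ, ← OmM.asmul (drO b M), ht, Om.pb_alg, Om.pb_alg, smul_smul,
        smul_smul, Algebra.commutes]
      rfl
    | add x y hx hy => rw [smul_add, map_add, hx, hy, map_add, smul_add]
  induction u using Om.induction₂ generalizing z with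
  | alg x =>
    induction x using TensorProduct.induction_on with
    | zero => simp only [map_zero, zero_smul]
    | tmul a c =>
      rw [← iA_mul_iB, map_mul, mul_smul, hA, map_mul, mul_smul, ← Om.pb_alg (iB ℂ A B), hR]
    | add x y hx hy => rw [map_add, add_smul, map_add, hx, hy, map_add, add_smul]
  | dA a =>
    induction z using kv_ind with
    | zero => rw [smul_zero, map_zero, smul_zero]
    | el w y =>
      rw [ddL_kel, hφ, hφ, ht, Om.pb_dd, Om.pb_dd, smul_smul, smul_smul, Om.pb_sg]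
      exact congrArg (· • t y) (Om.ι_mul _ _).symm
    | add x y hx hy => rw [smul_add, map_add, hx, hy, map_add, smul_add]
  | dB c => rw [← Om.pb_dd, hR]
  | mul x y hx hy => rw [mul_smul, hx, hy, map_mul, mul_smul]
  | add x y hx hy => rw [add_smul, map_add, hx, hy, map_add, add_smul]

/-- The linear map `w ⊗ y ↦ w · t y`. -/
def kvL (b' : DB ℂ (A ⊗[ℂ] B)) (F : OmM C) (g : B →ₐ[ℂ] C) (t : (drO b M).M.V →ₗ[ℂ] F.M.V) :
    (kvO B b M b').M.V →ₗ[ℂ] F.M.V := H710.actL F (OmGD.pb g).f t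

theorem kvL_el (F : OmM C) (g : B →ₐ[ℂ] C) (t : (drO b M).M.V →ₗ[ℂ] F.M.V) (w : Om ℂ B)
    (y : (drO b M).M.V) : kvL b' F g t (kel b' w y) = Om.pb g w • t y := rfl

/-- The morphism `w ⊗ y ↦ w · t y`. -/
def kvA (b' : DB ℂ (A ⊗[ℂ] B)) (F : OmM C) (g : B →ₐ[ℂ] C) (t : GD.Hom (drO b M).M F.M) :
    GD.Hom (kvO B b M b').M F.M := act F (OmGD.pb g) (sgC_pb g) t

theorem kvA_f (F : OmM C) (g : B →ₐ[ℂ] C) (t : GD.Hom (drO b M).M F.M) :
    (kvA b' F g t).f = kvL b' F g t.f := rfl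

/-- The composition with a bijection which reflects the degrees. -/
theorem Hm.qis_post_bij {Q F F' : OmM A} (σ : Sg Q) (u : GD.Hom F.M F'.M)
    (hu : ∀ (w : Om ℂ A) x, u.f (w • x) = w • u.f x) (hb : Function.Bijective u.f)
    (hg : ∀ m x, u.f x ∈ F'.M.gr m → x ∈ F.M.gr m) : GD.Qis (Hm.post σ u hu) := by
  let e : F.M.V ≃ₗ[Om ℂ A] F'.M.V := LinearEquiv.ofBijective ⟨⟨u.f, map_add _⟩, hu⟩ hb
  refine qis_of_bij _ (fun η η' h => LinearMap.ext fun x => hb.1 (LinearMap.congr_fun h x))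
    fun m η hη => ⟨e.symm.toLinearMap ∘ₗ η, fun k x hx => hg _ _ ?_,
      LinearMap.ext fun x => e.apply_symm_apply _⟩
  exact (congrArg (· ∈ F'.M.gr (k + m)) (e.apply_symm_apply (η x))).mpr (hη k x hx)

/-- The Künneth map induces a quasi-isomorphism of the complexes of linear maps. -/
theorem hq_kv {Q : OmM C} (σ : Sg Q) (R : Fr Q) (f : C →ₐ[ℂ] A ⊗[ℂ] B) {L : DGM (A ⊗[ℂ] B)}
    (u0 : GD.Hom (pullD (A ⊗[ℂ] B) b M).M L.M)
    (h0 : ∀ (a : A ⊗[ℂ] B) x, u0.f (a • x) = a • u0.f x) (hq0 : GD.Qis u0)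
    (v : GD.Hom (drO b' (pullD (A ⊗[ℂ] B) b M)).M (drO b' L).M)
    (hv : ∀ (w : Om ℂ (A ⊗[ℂ] B)) x, v.f (w • x) = w • v.f x)
    (h : ∀ x, v.f (1 ⊗ₜ[A ⊗[ℂ] B] x) - 1 ⊗ₜ[A ⊗[ℂ] B] u0.f x ∈ fge L.M.V 1)
    (κ : GD.Hom (kvO B b M b').M (drO b' L).M) (e : ∀ z, κ.f z = v.f ((kv0 B b M b').f z))
    (hκ : ∀ (w : Om ℂ C) (x : (OmM.res f (kvO B b M b')).M.V),
      OmM.rs f (κ.f (w • x :)) = w • OmM.rs f (κ.f x)) :
    GD.Qis (Hm.post (F := OmM.res f (kvO B b M b')) (F' := OmM.res f (drO b' L)) σ κ hκ) := by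
  have q1 := Hm.qis_post_bij (F := OmM.res f (kvO B b M b'))
    (F' := OmM.res f (drO b' (pullD (A ⊗[ℂ] B) b M))) σ (kv0 B b M b')
    (fun w x => kv0_rho b b' _ x) ⟨kv0_inj b b', kv0_surj b b'⟩ (fun m x => kv0_gr b b')
  have q2 := hq (F := OmM.res f (drO b' (pullD (A ⊗[ℂ] B) b M))) (F' := OmM.res f (drO b' L)) σ R v
    (fun w x => hv _ x) ((fqis_dr b' u0 h0 hq0 v hv h).res f)
  exact qis_congr (fun η => LinearMap.ext fun x => (e _).symm) (GD.Qis.comp q2 q1)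

end

end Vale.Agent.P286EX
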